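import Vale.Agent.P141.H733.StageYN

/-!
# P141, line (A): the raw pair sums of the stack, summed over the points `x₀`

`two_sqrt`, `raw_x0` : Cauchy-Schwarz over the family inside the roots, births kept;
`raw_form` : the form of the hypotheses `hBC`, `hCA` of `stageY_num`.
-/

namespace Vale.Agent.P141.H733

open Finset

noncomputable section

theorem two_sqrt {a b c d : ℝ} (ha : 0 ≤ a) (hb : 0 ≤ b) (hc : 0 ≤ c) (hd : 0 ≤ d) :
    √(a * b) + √(c * d) ≤ √((a + c) * (b + d)) := by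
  rw [Real.sqrt_mul ha, Real.sqrt_mul hc]
  refine Real.le_sqrt_of_sq_le ?_
  have h1 := Real.sq_sqrt ha
  have h2 := Real.sq_sqrt hb
  have h3 := Real.sq_sqrt hc
  have h4 := Real.sq_sqrt hd
  have h5 := sq_nonneg (√a * √d - √c * √b)
  have e1 : (√a * √b + √c * √d) ^ 2 = √a ^ 2 * √b ^ 2 + √c ^ 2 * √d ^ 2 +
      2 * ((√a * √d) * (√c * √b)) := by ring
  have e2 : (√a * √d - √c * √b) ^ 2 = √a ^ 2 * √d ^ 2 + √c ^ 2 * √b ^ 2 -
      2 * ((√a * √d) * (√c * √b)) := by ring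
  rw [e1, h1, h2, h3, h4]
  rw [e2, h1, h2, h3, h4] at h5
  nlinarith

variable {X : Type*} {I : Finset X}

/-- **The sum over the family.** `E`, `F` : energies of the stack and of the partner, `G`, `H` : the
same on the born squares, `D` : affected masses, `Bt` : any further first order term. -/
theorem raw_x0 {R E F G H D Bt : X → ℝ} {α c : ℝ} (hα : 0 ≤ α)
    (hE : ∀ i, 0 ≤ E i) (hF : ∀ i, 0 ≤ F i) (hG : ∀ i, 0 ≤ G i) (hH : ∀ i, 0 ≤ H i)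
    (h : ∀ i ∈ I, R i ≤ √(α * (E i * F i)) + √(α * (G i * H i)) + c * (E i + D i) + Bt i) :
    ∑ i ∈ I, R i ≤ √(α * ((∑ i ∈ I, E i + ∑ i ∈ I, G i) * (∑ i ∈ I, F i + ∑ i ∈ I, H i))) +
      c * (∑ i ∈ I, E i + ∑ i ∈ I, D i) + ∑ i ∈ I, Bt i := by
  have h1 := sum_le_sum h
  rw [sum_add_distrib, sum_add_distrib, sum_add_distrib, ← mul_sum, sum_add_distrib] at h1
  have s1 : ∑ i ∈ I, √(α * (E i * F i)) ≤ √((α * ∑ i ∈ I, E i) * ∑ i ∈ I, F i) := by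
    have := H581.sum_sqrt_le (I := I) (f := fun i => α * E i) (g := F)
      (fun i => mul_nonneg hα (hE i)) hF
    rw [← mul_sum] at this
    refine le_trans (le_of_eq (sum_congr rfl fun i _ => ?_)) this
    rw [mul_assoc]
  have s2 : ∑ i ∈ I, √(α * (G i * H i)) ≤ √((α * ∑ i ∈ I, G i) * ∑ i ∈ I, H i) := by
    have := H581.sum_sqrt_le (I := I) (f := fun i => α * G i) (g := H)
      (fun i => mul_nonneg hα (hG i)) hH
    rw [← mul_sum] at this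
    refine le_trans (le_of_eq (sum_congr rfl fun i _ => ?_)) this
    rw [mul_assoc]
  have nE : 0 ≤ ∑ i ∈ I, E i := sum_nonneg fun i _ => hE i
  have nF : 0 ≤ ∑ i ∈ I, F i := sum_nonneg fun i _ => hF i
  have nG : 0 ≤ ∑ i ∈ I, G i := sum_nonneg fun i _ => hG i
  have nH : 0 ≤ ∑ i ∈ I, H i := sum_nonneg fun i _ => hH i
  have s3 := two_sqrt (mul_nonneg hα nE) nF (mul_nonneg hα nG) nH
  rw [← mul_add] at s3
  have s4 : α * (∑ i ∈ I, E i + ∑ i ∈ I, G i) * (∑ i ∈ I, F i + ∑ i ∈ I, H i) =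
      α * ((∑ i ∈ I, E i + ∑ i ∈ I, G i) * (∑ i ∈ I, F i + ∑ i ∈ I, H i)) := mul_assoc _ _ _
  rw [s4] at s3
  linarith

/-- **The form of the hypotheses of `stageY_num`** : levels `x` (stack) and `τ` (raw partner),
`α = Λ² x² τ²`, `c = Λ τ²`. -/
theorem raw_form {R E F G H D : X → ℝ} {Λ x τ : ℝ} (hΛ : 0 ≤ Λ)
    (hE : ∀ i, 0 ≤ E i) (hF : ∀ i, 0 ≤ F i) (hG : ∀ i, 0 ≤ G i) (hH : ∀ i, 0 ≤ H i)
    (hD : ∀ i, 0 ≤ D i)
    (h : ∀ i ∈ I, R i ≤ Λ * (√(x ^ 2 * E i * (τ ^ 2 * F i)) + √(x ^ 2 * G i * (τ ^ 2 * H i)) +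
      τ ^ 2 * (E i + D i))) :
    ∑ i ∈ I, R i ≤ Λ * (√(x ^ 2 * (∑ i ∈ I, E i + ∑ i ∈ I, G i + ∑ i ∈ I, D i) *
      (τ ^ 2 * (∑ i ∈ I, F i + ∑ i ∈ I, H i))) +
      τ ^ 2 * (∑ i ∈ I, E i + ∑ i ∈ I, G i + ∑ i ∈ I, D i)) := by
  have h0 : ∀ i ∈ I, R i ≤ √((Λ ^ 2 * x ^ 2 * τ ^ 2) * (E i * F i)) +
      √((Λ ^ 2 * x ^ 2 * τ ^ 2) * (G i * H i)) + (Λ * τ ^ 2) * (E i + D i) + (fun _ : X => (0 : ℝ)) i := by
    intro i hi
    refine (h i hi).trans (le_of_eq ?_)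
    have e : ∀ p q : ℝ, √((Λ ^ 2 * x ^ 2 * τ ^ 2) * (p * q)) = Λ * √(x ^ 2 * p * (τ ^ 2 * q)) := by
      intro p q
      rw [show (Λ ^ 2 * x ^ 2 * τ ^ 2) * (p * q) = Λ ^ 2 * (x ^ 2 * p * (τ ^ 2 * q)) by ring,
        Real.sqrt_mul (sq_nonneg Λ), Real.sqrt_sq hΛ]
    rw [e, e]
    ring
  have h1 := raw_x0 (by positivity) hE hF hG hH h0
  rw [sum_const_zero, add_zero] at h1
  have nE : 0 ≤ ∑ i ∈ I, E i := sum_nonneg fun i _ => hE i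
  have nF : 0 ≤ ∑ i ∈ I, F i := sum_nonneg fun i _ => hF i
  have nG : 0 ≤ ∑ i ∈ I, G i := sum_nonneg fun i _ => hG i
  have nH : 0 ≤ ∑ i ∈ I, H i := sum_nonneg fun i _ => hH i
  have nD : 0 ≤ ∑ i ∈ I, D i := sum_nonneg fun i _ => hD i
  refine h1.trans ?_
  set e := ∑ i ∈ I, E i
  set f := ∑ i ∈ I, F i
  set g := ∑ i ∈ I, G i
  set hh := ∑ i ∈ I, H i
  set d := ∑ i ∈ I, D i
  have e1 : √((Λ ^ 2 * x ^ 2 * τ ^ 2) * ((e + g) * (f + hh))) =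
      Λ * √(x ^ 2 * (e + g) * (τ ^ 2 * (f + hh))) := by
    rw [show (Λ ^ 2 * x ^ 2 * τ ^ 2) * ((e + g) * (f + hh)) =
      Λ ^ 2 * (x ^ 2 * (e + g) * (τ ^ 2 * (f + hh))) by ring,
      Real.sqrt_mul (sq_nonneg Λ), Real.sqrt_sq hΛ]
  rw [e1, mul_add Λ]
  refine add_le_add (mul_le_mul_of_nonneg_left (Real.sqrt_le_sqrt ?_) hΛ) ?_
  · refine mul_le_mul_of_nonneg_right (mul_le_mul_of_nonneg_left (by linarith) (sq_nonneg x))
      (by positivity)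
  · rw [mul_assoc]
    exact mul_le_mul_of_nonneg_left (mul_le_mul_of_nonneg_left (by linarith) (sq_nonneg τ)) hΛ

end

end Vale.Agent.P141.H733
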