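import Mathlib

/-!
# P141, line (A): the numbers of the stack assembly

`lev_exists` : number of levels below `τ`, cube absorbed by `√(τ / x)`; `stack_numbers` : from the
pair bounds of the stack (saturated, raw, static) and the stage sum to the output.
-/

namespace Vale.Agent.P141.H733

noncomputable section

theorem six_le (j : ℕ) : ((j : ℝ) + 1) ^ 6 ≤ 2500 * 2 ^ j := by
  by_cases h : j < 8
  · interval_cases j <;> norm_num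
  · push Not at h
    induction j, h using Nat.le_induction with
    | base => norm_num
    | succ n hn ih =>
      have hn' : (8 : ℝ) ≤ n := by exact_mod_cast hn
      have h1 : ((n : ℝ) + 1 + 1) ^ 6 ≤ 2 * ((n : ℝ) + 1) ^ 6 := by
        have h2 : ((n : ℝ) + 1 + 1) ≤ (10 / 9) * ((n : ℝ) + 1) := by linarith
        have h3 := pow_le_pow_left₀ (by positivity) h2 6
        have h4 : ((10 : ℝ) / 9 * ((n : ℝ) + 1)) ^ 6 = (10 / 9) ^ 6 * ((n : ℝ) + 1) ^ 6 := by ring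
        have h5 : ((10 : ℝ) / 9) ^ 6 ≤ 2 := by norm_num
        have h6 : (0 : ℝ) ≤ ((n : ℝ) + 1) ^ 6 := by positivity
        nlinarith
      push_cast
      rw [pow_succ (2 : ℝ) n]
      nlinarith

/-- number of levels from `τ` down to `x` -/
theorem lev_exists {τ x : ℝ} (hx : 0 < x) (hxτ : x ≤ τ) :
    ∃ j : ℕ, τ ≤ 2 ^ j * x ∧ ((j : ℝ) + 1) ^ 3 ≤ 71 * √(τ / x) := by
  have hq : 1 ≤ τ / x := by rwa [le_div_iff₀ hx, one_mul]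
  have hex : ∃ j : ℕ, τ / x ≤ 2 ^ j := by
    obtain ⟨j, hj⟩ := pow_unbounded_of_one_lt (τ / x) (one_lt_two)
    exact ⟨j, hj.le⟩
  classical
  set j := Nat.find hex with hj
  have h1 : τ / x ≤ 2 ^ j := Nat.find_spec hex
  refine ⟨j, by rwa [div_le_iff₀ hx] at h1, ?_⟩
  have h2 : (2 : ℝ) ^ j ≤ 2 * (τ / x) := by
    rcases Nat.eq_zero_or_pos j with h0 | h0
    · rw [h0, pow_zero]
      linarith
    · obtain ⟨i, hi⟩ : ∃ i, j = i + 1 := ⟨j - 1, by omega⟩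
      have h3 : ¬ τ / x ≤ 2 ^ i := Nat.find_min hex (by rw [← hj]; omega)
      push Not at h3
      rw [hi, pow_succ]
      linarith
  have h4 := six_le j
  have h5 : (((j : ℝ) + 1) ^ 3) ^ 2 ≤ (71 * √(τ / x)) ^ 2 := by
    rw [mul_pow, Real.sq_sqrt (by linarith)]
    calc (((j : ℝ) + 1) ^ 3) ^ 2 = ((j : ℝ) + 1) ^ 6 := by ring
      _ ≤ 2500 * 2 ^ j := h4
      _ ≤ 2500 * (2 * (τ / x)) := by gcongr
      _ ≤ 71 ^ 2 * (τ / x) := by nlinarith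
  exact (pow_le_pow_iff_left₀ (by positivity) (by positivity) (by norm_num)).1 h5

theorem cube_add (J j : ℕ) : (((J + j : ℕ) : ℝ) + 1) ^ 3 ≤ ((J : ℝ) + 1) ^ 3 * ((j : ℝ) + 1) ^ 3 := by
  rw [← mul_pow]
  refine pow_le_pow_left₀ (by positivity) ?_ 3
  push_cast
  have h1 : (0 : ℝ) ≤ J := Nat.cast_nonneg J
  have h2 : (0 : ℝ) ≤ j := Nat.cast_nonneg j
  nlinarith [mul_nonneg h1 h2]

/-- saturated pair at the levels `x`, `θ x` -/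
theorem sat_pair {R : ℝ → ℝ → ℝ} {K E EV EB cC θ τ : ℝ} {J : ℕ} (hK : 0 ≤ K) (hE : 0 ≤ E)
    (hEB : 0 ≤ EB) (hθ : 0 < θ) (hc : cC ≤ 2 ^ J * (θ * τ))
    (h : ∀ (x : ℝ) (J' : ℕ), 0 < x → cC ≤ 2 ^ J' * (θ * x) → R x (θ * x) ≤
      K * ((J' : ℝ) + 1) ^ 3 * (√((θ * x) ^ 2 * E * (x ^ 2 * EV)) + x ^ 2 * E + (θ * x) ^ 2 * EB))
    (x : ℝ) (hx : 0 < x) (hxτ : x ≤ τ) :
    R x (θ * x) ≤ (71 * K * ((J : ℝ) + 1) ^ 3 * (θ * √(E * EV) + E + θ ^ 2 * EB)) *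
      (x ^ 2 * √(τ / x)) := by
  obtain ⟨j, hj1, hj2⟩ := lev_exists hx hxτ
  have h1 := h x (J + j) hx (by
    refine hc.trans ?_
    rw [pow_add]
    have h0 : θ * τ ≤ θ * (2 ^ j * x) := mul_le_mul_of_nonneg_left hj1 hθ.le
    calc (2 : ℝ) ^ J * (θ * τ) ≤ 2 ^ J * (θ * (2 ^ j * x)) :=
          mul_le_mul_of_nonneg_left h0 (by positivity)
      _ = _ := by ring)
  have h2 : √((θ * x) ^ 2 * E * (x ^ 2 * EV)) = θ * x ^ 2 * √(E * EV) := by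
    rw [show (θ * x) ^ 2 * E * (x ^ 2 * EV) = (θ * x ^ 2) ^ 2 * (E * EV) by ring,
      Real.sqrt_mul (by positivity), Real.sqrt_sq (by positivity)]
  have h3 : (((J + j : ℕ) : ℝ) + 1) ^ 3 ≤ ((J : ℝ) + 1) ^ 3 * (71 * √(τ / x)) :=
    (cube_add J j).trans (mul_le_mul_of_nonneg_left hj2 (by positivity))
  have h4 : 0 ≤ θ * x ^ 2 * √(E * EV) + x ^ 2 * E + (θ * x) ^ 2 * EB := by positivity
  rw [h2] at h1
  refine h1.trans ?_
  calc K * (((J + j : ℕ) : ℝ) + 1) ^ 3 * (θ * x ^ 2 * √(E * EV) + x ^ 2 * E + (θ * x) ^ 2 * EB)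
      ≤ K * (((J : ℝ) + 1) ^ 3 * (71 * √(τ / x))) *
        (θ * x ^ 2 * √(E * EV) + x ^ 2 * E + (θ * x) ^ 2 * EB) :=
        mul_le_mul_of_nonneg_right (mul_le_mul_of_nonneg_left h3 hK) h4
    _ = _ := by ring

/-- raw pair: number above `θ τ` -/
theorem raw_num {K E EV θ τ c x : ℝ} {J : ℕ} (hK : 0 ≤ K) (hE : 0 ≤ E)
    (hθ : 0 < θ) (hc0 : 0 < c) (hcτ : c ≤ τ) (hx : θ * τ ≤ x) :
    K * ((J : ℝ) + 1) ^ 3 * (√(x ^ 2 * E * (c ^ 2 * EV)) + c ^ 2 * E) ≤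
      K * ((J : ℝ) + 1) ^ 3 * τ * x * ((θ * √(E * EV) + E) / θ) := by
  have hτ : 0 < τ := hc0.trans_le hcτ
  have hx0 : 0 < x := lt_of_lt_of_le (by positivity) hx
  have f1 : √(x ^ 2 * E * (c ^ 2 * EV)) ≤ x * τ * √(E * EV) := by
    rw [show x ^ 2 * E * (c ^ 2 * EV) = (x * c) ^ 2 * (E * EV) by ring,
      Real.sqrt_mul (by positivity), Real.sqrt_sq (by positivity)]
    exact mul_le_mul_of_nonneg_right (mul_le_mul_of_nonneg_left hcτ hx0.le) (Real.sqrt_nonneg _)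
  have f2 : c ^ 2 * E ≤ τ * x * (E / θ) := by
    have g1 : c ^ 2 ≤ τ * τ := by nlinarith
    have g3 : τ ≤ x / θ := by
      rw [le_div_iff₀ hθ]
      linarith
    calc c ^ 2 * E ≤ τ * τ * E := mul_le_mul_of_nonneg_right g1 hE
      _ ≤ τ * (x / θ) * E :=
        mul_le_mul_of_nonneg_right (mul_le_mul_of_nonneg_left g3 hτ.le) hE
      _ = _ := by ring
  have f3 : (θ * √(E * EV) + E) / θ = √(E * EV) + E / θ := by
    field_simp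
  have f4 : √(x ^ 2 * E * (c ^ 2 * EV)) + c ^ 2 * E ≤ τ * x * ((θ * √(E * EV) + E) / θ) := by
    rw [f3, mul_add]
    refine add_le_add (f1.trans (le_of_eq (by ring))) f2
  calc K * ((J : ℝ) + 1) ^ 3 * (√(x ^ 2 * E * (c ^ 2 * EV)) + c ^ 2 * E)
      ≤ K * ((J : ℝ) + 1) ^ 3 * (τ * x * ((θ * √(E * EV) + E) / θ)) :=
        mul_le_mul_of_nonneg_left f4 (by positivity)
    _ = _ := by ring

/-- the raw levels: `κ'` -/
theorem raw_kappa {K E EA EV EB cA cB θ τ x r1 r2 : ℝ} {J : ℕ} (hK : 0 ≤ K) (hE : 0 ≤ E)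
    (hEA : 0 ≤ EA) (hEB : 0 ≤ EB) (hθ : 0 < θ) (hcA : 0 < cA) (hcB : 0 < cB) (hA : cA ≤ τ)
    (hB : cB ≤ τ) (hx : θ * τ ≤ x) (n2 : 0 ≤ r2)
    (h1 : r1 ≤ K * ((J : ℝ) + 1) ^ 3 * (√(x ^ 2 * E * (cB ^ 2 * EV)) + cB ^ 2 * E))
    (h2 : r2 ≤ K * ((J : ℝ) + 1) ^ 3 * (√(x ^ 2 * E * (cA ^ 2 * EA)) + cA ^ 2 * E)) :
    √(r1 * r2) ≤ K * ((J : ℝ) + 1) ^ 3 * τ *
      (√((θ * √(E * EA) + E + θ ^ 2 * EA) * (θ * √(E * EV) + E + θ ^ 2 * EB)) / θ) * x := by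
  have hτ : 0 < τ := hcA.trans_le hA
  have hx0 : 0 < x := lt_of_lt_of_le (by positivity) hx
  set PA := θ * √(E * EA) + E + θ ^ 2 * EA with hPA
  set PB := θ * √(E * EV) + E + θ ^ 2 * EB with hPB
  have pA : 0 ≤ PA := by positivity
  have pB : 0 ≤ PB := by positivity
  have k1 : r1 ≤ K * ((J : ℝ) + 1) ^ 3 * τ * x * (PB / θ) := by
    refine (h1.trans (raw_num hK hE hθ hcB hB hx)).trans ?_
    have : (θ * √(E * EV) + E) / θ ≤ PB / θ := by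
      refine div_le_div_of_nonneg_right ?_ hθ.le
      have := mul_nonneg (sq_nonneg θ) hEB
      linarith
    exact mul_le_mul_of_nonneg_left this (by positivity)
  have k2 : r2 ≤ K * ((J : ℝ) + 1) ^ 3 * τ * x * (PA / θ) := by
    refine (h2.trans (raw_num hK hE hθ hcA hA hx)).trans ?_
    have : (θ * √(E * EA) + E) / θ ≤ PA / θ := by
      refine div_le_div_of_nonneg_right ?_ hθ.le
      have := mul_nonneg (sq_nonneg θ) hEA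
      linarith
    exact mul_le_mul_of_nonneg_left this (by positivity)
  refine Real.sqrt_le_iff.2 ⟨by positivity, ?_⟩
  have k3 : r1 * r2 ≤ (K * ((J : ℝ) + 1) ^ 3 * τ * x * (PB / θ)) *
      (K * ((J : ℝ) + 1) ^ 3 * τ * x * (PA / θ)) := mul_le_mul k1 k2 n2 (by positivity)
  refine k3.trans (le_of_eq ?_)
  have e1 : √(PA * PB) ^ 2 = PA * PB := Real.sq_sqrt (mul_nonneg pA pB)
  rw [mul_pow, mul_pow, div_pow, e1]
  ring

/-- the sum of the four numbers of the stage -/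
theorem stage_sum {K P₀ PA PB θ τ T : ℝ} {J : ℕ} (hK : 0 ≤ K) (hA : 0 ≤ PA)
    (hB : 0 ≤ PB) (hθ : 0 < θ) (hτ : 0 ≤ τ)
    (h : T ≤ K * (√(K * P₀ * (71 * K * ((J : ℝ) + 1) ^ 3 * PA)) +
      √(K * P₀ * (71 * K * ((J : ℝ) + 1) ^ 3 * PB)) +
      √(71 * K * ((J : ℝ) + 1) ^ 3 * PA * (71 * K * ((J : ℝ) + 1) ^ 3 * PB)) / θ) * τ +
      6 * (K * ((J : ℝ) + 1) ^ 3 * τ * (√(PA * PB) / θ)) * ((J : ℝ) + 1)) :
    T ≤ (200 * K ^ 2 + 6 * K) * ((J : ℝ) + 1) ^ 4 * τ *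
      (√(P₀ * PA) + √(P₀ * PB) + √(PA * PB) / θ) := by
  have jn : (0 : ℝ) ≤ J := Nat.cast_nonneg J
  set j : ℝ := (J : ℝ) + 1 with hj
  have j1 : (1 : ℝ) ≤ j := by linarith
  have j0 : 0 ≤ j := by linarith
  have s1 : ∀ P : ℝ, 0 ≤ P → √(K * P₀ * (71 * K * j ^ 3 * P)) ≤ 9 * K * j ^ 3 * √(P₀ * P) := by
    intro P hP
    rw [show K * P₀ * (71 * K * j ^ 3 * P) = (K ^ 2 * 71 * j ^ 3) * (P₀ * P) by ring,
      Real.sqrt_mul (by positivity)]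
    refine mul_le_mul_of_nonneg_right ?_ (Real.sqrt_nonneg _)
    refine Real.sqrt_le_iff.2 ⟨by positivity, ?_⟩
    have a1 : j ^ 3 ≤ (j ^ 3) ^ 2 := le_self_pow₀ (one_le_pow₀ j1) (by norm_num)
    have a2 : (0 : ℝ) ≤ K ^ 2 * (j ^ 3) ^ 2 := by positivity
    have a3 : K ^ 2 * j ^ 3 ≤ K ^ 2 * (j ^ 3) ^ 2 := mul_le_mul_of_nonneg_left a1 (sq_nonneg K)
    nlinarith
  have s2 : √(71 * K * j ^ 3 * PA * (71 * K * j ^ 3 * PB)) = 71 * K * j ^ 3 * √(PA * PB) := by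
    rw [show 71 * K * j ^ 3 * PA * (71 * K * j ^ 3 * PB) = (71 * K * j ^ 3) ^ 2 * (PA * PB) by ring,
      Real.sqrt_mul (by positivity), Real.sqrt_sq (by positivity)]
  set a := √(P₀ * PA) with ha
  set b := √(P₀ * PB) with hb
  set c := √(PA * PB) with hc
  have a0 : 0 ≤ a := Real.sqrt_nonneg _
  have b0 : 0 ≤ b := Real.sqrt_nonneg _
  have c0 : 0 ≤ c / θ := div_nonneg (Real.sqrt_nonneg _) hθ.le
  rw [s2] at h
  have t1 := s1 PA hA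
  have t2 := s1 PB hB
  rw [← ha] at t1
  rw [← hb] at t2
  have h3 : T ≤ K * (9 * K * j ^ 3 * a + 9 * K * j ^ 3 * b + 71 * K * j ^ 3 * (c / θ)) * τ +
      6 * (K * j ^ 3 * τ * (c / θ)) * j := by
    refine h.trans (add_le_add ?_ le_rfl)
    refine mul_le_mul_of_nonneg_right (mul_le_mul_of_nonneg_left ?_ hK) hτ
    refine add_le_add (add_le_add t1 t2) (le_of_eq (by ring))
  have j34 : j ^ 3 ≤ j ^ 4 := pow_le_pow_right₀ j1 (by norm_num)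
  have h4 : K * (9 * K * j ^ 3 * a + 9 * K * j ^ 3 * b + 71 * K * j ^ 3 * (c / θ)) * τ ≤
      K ^ 2 * (9 * a + 9 * b + 71 * (c / θ)) * τ * j ^ 4 := by
    have : 0 ≤ K ^ 2 * (9 * a + 9 * b + 71 * (c / θ)) * τ := by positivity
    calc _ = K ^ 2 * (9 * a + 9 * b + 71 * (c / θ)) * τ * j ^ 3 := by ring
      _ ≤ _ := mul_le_mul_of_nonneg_left j34 this
  have h5 : T ≤ (9 * K ^ 2 * a + 9 * K ^ 2 * b + (71 * K ^ 2 + 6 * K) * (c / θ)) * (j ^ 4 * τ) := by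
    refine (h3.trans (add_le_add h4 le_rfl)).trans (le_of_eq (by ring))
  refine h5.trans ?_
  have q0 : 0 ≤ j ^ 4 * τ := by positivity
  have m0 : 0 ≤ 200 * K ^ 2 + 6 * K := by positivity
  have c1 : 9 * K ^ 2 ≤ 200 * K ^ 2 + 6 * K := by nlinarith [sq_nonneg K]
  have c2 : 71 * K ^ 2 + 6 * K ≤ 200 * K ^ 2 + 6 * K := by nlinarith [sq_nonneg K]
  calc (9 * K ^ 2 * a + 9 * K ^ 2 * b + (71 * K ^ 2 + 6 * K) * (c / θ)) * (j ^ 4 * τ)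
      ≤ ((200 * K ^ 2 + 6 * K) * a + (200 * K ^ 2 + 6 * K) * b +
        (200 * K ^ 2 + 6 * K) * (c / θ)) * (j ^ 4 * τ) := by
        refine mul_le_mul_of_nonneg_right ?_ q0
        exact add_le_add (add_le_add (mul_le_mul_of_nonneg_right c1 a0)
          (mul_le_mul_of_nonneg_right c1 b0)) (mul_le_mul_of_nonneg_right c2 c0)
    _ = _ := by ring

/-- **The numbers of the stack**: the pair sums at all levels (saturated, raw, static), the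
stage sum as a hypothesis, `J` levels from `cC` to `θ τ`. -/
theorem stack_numbers {RAB RBC RCA : ℝ → ℝ → ℝ} {T K E EA EB EV cA cB cC θ τ : ℝ} {J : ℕ}
    (hK : 0 ≤ K) (hE : 0 ≤ E) (hEA : 0 ≤ EA) (hEB : 0 ≤ EB) (hEV : E ≤ θ ^ 2 * EV)
    (hcA : 0 < cA) (hcB : 0 < cB) (hA : cA ≤ τ) (hB : cB ≤ τ) (hθ : 0 < θ)
    (hc : cC ≤ 2 ^ J * (θ * τ)) (hCn : ∀ x, 0 ≤ RCA x cA)
    (hAB : ∀ x, 0 < x → RAB x x ≤ K * (x ^ 2 * √(EA * EB)))
    (hBC : ∀ (x : ℝ) (J' : ℕ), 0 < x → cC ≤ 2 ^ J' * (θ * x) → x ^ 2 * E ≤ (θ * x) ^ 2 * EV →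
      RBC x (θ * x) ≤ K * ((J' : ℝ) + 1) ^ 3 *
        (√((θ * x) ^ 2 * E * (x ^ 2 * EV)) + x ^ 2 * E + (θ * x) ^ 2 * EB))
    (hCA : ∀ (x : ℝ) (J' : ℕ), 0 < x → cC ≤ 2 ^ J' * (θ * x) →
      RCA (θ * x) x ≤ K * ((J' : ℝ) + 1) ^ 3 *
        (√((θ * x) ^ 2 * E * (x ^ 2 * EA)) + x ^ 2 * E + (θ * x) ^ 2 * EA))
    (hBCr : ∀ (x : ℝ) (J' : ℕ), 0 < x → cC ≤ 2 ^ J' * x → cB ^ 2 * E ≤ x ^ 2 * EV →
      RBC cB x ≤ K * ((J' : ℝ) + 1) ^ 3 * (√(x ^ 2 * E * (cB ^ 2 * EV)) + cB ^ 2 * E))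
    (hCAr : ∀ (x : ℝ) (J' : ℕ), 0 < x → cC ≤ 2 ^ J' * x →
      RCA x cA ≤ K * ((J' : ℝ) + 1) ^ 3 * (√(x ^ 2 * E * (cA ^ 2 * EA)) + cA ^ 2 * E))
    (stage : ∀ {P₀ PA PB κ' : ℝ}, 0 ≤ P₀ → 0 ≤ PA → 0 ≤ PB → 0 ≤ κ' →
      (∀ x, 0 < x → x ≤ τ → RAB x x ≤ P₀ * (x ^ 2 * √(τ / x))) →
      (∀ x, 0 < x → x ≤ τ → RBC x (θ * x) ≤ PB * (x ^ 2 * √(τ / x))) →
      (∀ x, 0 < x → x ≤ τ → RCA (θ * x) x ≤ PA * (x ^ 2 * √(τ / x))) →
      (∀ x, θ * τ ≤ x → x ≤ cC → √(RBC cB x * RCA x cA) ≤ κ' * x) →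
      ∀ {L₀ : ℕ}, cC / 2 ^ (L₀ - 1) ≤ θ * τ →
      T ≤ K * (√(P₀ * PA) + √(P₀ * PB) + √(PA * PB) / θ) * τ + 6 * κ' * L₀) :
    T ≤ (200 * K ^ 2 + 6 * K) * ((J : ℝ) + 1) ^ 4 * τ *
      (√(√(EA * EB) * (θ * √(E * EA) + E + θ ^ 2 * EA)) +
        √(√(EA * EB) * (θ * √(E * EV) + E + θ ^ 2 * EB)) +
        √((θ * √(E * EA) + E + θ ^ 2 * EA) * (θ * √(E * EV) + E + θ ^ 2 * EB)) / θ) := by
  have hτ : 0 < τ := hcA.trans_le hA
  have pA : 0 ≤ θ * √(E * EA) + E + θ ^ 2 * EA := by positivity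
  have pB : 0 ≤ θ * √(E * EV) + E + θ ^ 2 * EB := by positivity
  refine stage_sum hK pA pB hθ hτ.le ?_
  have key := stage (P₀ := K * √(EA * EB))
    (PA := 71 * K * ((J : ℝ) + 1) ^ 3 * (θ * √(E * EA) + E + θ ^ 2 * EA))
    (PB := 71 * K * ((J : ℝ) + 1) ^ 3 * (θ * √(E * EV) + E + θ ^ 2 * EB))
    (κ' := K * ((J : ℝ) + 1) ^ 3 * τ *
      (√((θ * √(E * EA) + E + θ ^ 2 * EA) * (θ * √(E * EV) + E + θ ^ 2 * EB)) / θ)) (L₀ := J + 1)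
    (by positivity) (by positivity) (by positivity) (by positivity) (fun x hx hxτ => ?_)
    (fun x hx hxτ => ?_) (fun x hx hxτ => ?_) (fun x hx hxc => ?_) (by
      rw [Nat.add_sub_cancel, div_le_iff₀ (by positivity)]
      linarith)
  · rw [Nat.cast_add, Nat.cast_one] at key
    exact key
  · refine (hAB x hx).trans ?_
    have h1 : 1 ≤ √(τ / x) := by
      rw [Real.one_le_sqrt, le_div_iff₀ hx, one_mul]
      exact hxτ
    have h2 : x ^ 2 * √(EA * EB) * 1 ≤ x ^ 2 * √(EA * EB) * √(τ / x) :=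
      mul_le_mul_of_nonneg_left h1 (by positivity)
    have h3 := mul_le_mul_of_nonneg_left h2 hK
    linarith
  · exact sat_pair hK hE hEB hθ hc (fun x J' hx hJ => hBC x J' hx hJ (by
      have h1 : x ^ 2 * E ≤ x ^ 2 * (θ ^ 2 * EV) := mul_le_mul_of_nonneg_left hEV (sq_nonneg x)
      refine h1.trans (le_of_eq ?_)
      ring)) x hx hxτ
  · exact sat_pair (R := fun a b => RCA b a) hK hE hEA hθ hc
      (fun x J' hx hJ => hCA x J' hx hJ) x hx hxτ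
  · have hx0 : 0 < x := lt_of_lt_of_le (by positivity) hx
    have hJ : cC ≤ 2 ^ J * x := hc.trans (mul_le_mul_of_nonneg_left hx (by positivity))
    have hEV0 : 0 ≤ EV := by
      by_contra hn
      push Not at hn
      have : θ ^ 2 * EV < 0 := mul_neg_of_pos_of_neg (by positivity) hn
      linarith
    have hd : cB ^ 2 * E ≤ x ^ 2 * EV := by
      have d1 : cB ^ 2 ≤ τ ^ 2 := pow_le_pow_left₀ hcB.le hB 2
      have d2 : (θ * τ) ^ 2 ≤ x ^ 2 := pow_le_pow_left₀ (by positivity) hx 2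
      calc cB ^ 2 * E ≤ τ ^ 2 * E := mul_le_mul_of_nonneg_right d1 hE
        _ ≤ τ ^ 2 * (θ ^ 2 * EV) := mul_le_mul_of_nonneg_left hEV (sq_nonneg τ)
        _ = (θ * τ) ^ 2 * EV := by ring
        _ ≤ _ := mul_le_mul_of_nonneg_right d2 hEV0
    exact raw_kappa hK hE hEA hEB hθ hcA hcB hA hB hx (hCn x) (hBCr x J hx0 hJ hd)
      (hCAr x J hx0 hJ)

end

end Vale.Agent.P141.H733
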