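import Vale.Agent.P141.H581.StageY
import Vale.Agent.P141.H733.StackN

/-!
# P141, line (A): `stageY` with the numbers of the moving stack put in

Pair bounds of the stack with raw partners at the levels `x ≥ g = θ τ`:
`M (√(x² E (τ² EA)) + τ² E)` for `(C, A)`, `M (√(x² E (τ² EV)) + τ² E)` for `(B, C)`.
-/

namespace Vale.Agent.P141.H733

open Finset Matrix Vale.Agent.P075 Vale.Agent.P141.PL Vale.Agent.P141.PL.H588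
open Vale.Agent.P141.PL.H804 Vale.Agent.P141.H958 Vale.Agent.P141.H609 Vale.Agent.P141.H581

noncomputable section

/-- raw pair bound at the levels `x ≥ θ τ` in the units `τ x / θ` -/
theorem raw_num' {M E EV θ τ x : ℝ} (hM : 0 ≤ M) (hE : 0 ≤ E) (hθ : 0 < θ) (hτ : 0 < τ)
    (hx : θ * τ ≤ x) :
    M * (√(x ^ 2 * E * (τ ^ 2 * EV)) + τ ^ 2 * E) ≤ M * τ * x * ((θ * √(E * EV) + E) / θ) := by
  have h := raw_num (J := 0) (EV := EV) hM hE hθ hτ le_rfl hx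
  simp only [Nat.cast_zero, zero_add, one_pow, mul_one] at h
  exact h

/-- the pair bound at the level `θ τ` -/
theorem raw_at {M E EV θ τ : ℝ} (hθ : 0 < θ) (hτ : 0 < τ) :
    M * (√((θ * τ) ^ 2 * E * (τ ^ 2 * EV)) + τ ^ 2 * E) = M * τ ^ 2 * (θ * √(E * EV) + E) := by
  rw [show (θ * τ) ^ 2 * E * (τ ^ 2 * EV) = (θ * τ ^ 2) ^ 2 * (E * EV) by ring,
    Real.sqrt_mul (by positivity), Real.sqrt_sq (by positivity)]
  ring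

/-- the product of the two raw pair bounds -/
theorem raw_kap {M E EA EV θ τ x r1 r2 : ℝ} (hM : 0 ≤ M) (hE : 0 ≤ E) (hθ : 0 < θ)
    (hτ : 0 < τ) (hx : θ * τ ≤ x) (n2 : 0 ≤ r2)
    (h1 : r1 ≤ M * (√(x ^ 2 * E * (τ ^ 2 * EV)) + τ ^ 2 * E))
    (h2 : r2 ≤ M * (√(x ^ 2 * E * (τ ^ 2 * EA)) + τ ^ 2 * E)) :
    √(r1 * r2) ≤ M * τ * (√((θ * √(E * EA) + E) * (θ * √(E * EV) + E)) / θ) * x := by
  have hx0 : 0 < x := lt_of_lt_of_le (by positivity) hx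
  set PA := θ * √(E * EA) + E with hPA
  set PB := θ * √(E * EV) + E with hPB
  have pA : 0 ≤ PA := by positivity
  have pB : 0 ≤ PB := by positivity
  have k1 : r1 ≤ M * τ * x * (PB / θ) := h1.trans (raw_num' hM hE hθ hτ hx)
  have k2 : r2 ≤ M * τ * x * (PA / θ) := h2.trans (raw_num' hM hE hθ hτ hx)
  refine Real.sqrt_le_iff.2 ⟨by positivity, ?_⟩
  refine (mul_le_mul k1 k2 n2 (by positivity)).trans (le_of_eq ?_)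
  have e1 : √(PA * PB) ^ 2 = PA * PB := Real.sq_sqrt (mul_nonneg pA pB)
  rw [mul_pow, mul_pow, div_pow, e1]
  ring

variable {X : Type*} {I : Finset X} {N : ℕ} {s : X → ℕ → Finset Pt} {τ cC : ℝ}
  {FA FB FC : X → NM}

/-- **`stageY` with the numbers of the stack**, `g = θ τ`. -/
theorem stageY_num (hτ : 0 < τ) (hC : 0 < cC)
    (capA : ∀ i ∈ I, ∀ k ∈ Icc 1 N, ∀ m ∈ s i k,
      (1 - gramC ((τ ^ 2)⁻¹ * (4 ^ k)⁻¹) (FA i k m)).PosSemidef)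
    (capB : ∀ i ∈ I, ∀ k ∈ Icc 1 N, ∀ m ∈ s i k,
      (1 - gramC ((τ ^ 2)⁻¹ * (4 ^ k)⁻¹) (FB i k m)).PosSemidef)
    (capC : ∀ i ∈ I, ∀ k ∈ Icc 1 N, ∀ m ∈ s i k,
      (1 - gramC ((cC ^ 2)⁻¹ * (4 ^ k)⁻¹) (FC i k m)).PosSemidef)
    {P₀ P₁ Z σ e₂ θ M E EA EV : ℝ} (hP₀ : 0 ≤ P₀) (hZ0 : 0 ≤ Z) (hθ : 0 < θ)
    (hM : 0 ≤ M) (hE : 0 ≤ E) {D L₀ L₁ : ℕ}
    (hDσ : τ / 2 ^ (D - 1) ≤ σ) (hσ : σ ≤ e₂) (he₂ : e₂ ≤ τ)
    (hL₀ : cC / 2 ^ (L₀ - 1) ≤ θ * τ) (hL₁ : cC / 2 ^ (L₁ - 1) ≤ e₂)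
    (hAB : ∀ h, 0 < h → h ≤ τ → RX I N s h h FA FB ≤ P₀ * h ^ 2)
    (hBC : ∀ x, θ * τ ≤ x → RX I N s τ x FB FC ≤
      M * (√(x ^ 2 * E * (τ ^ 2 * EV)) + τ ^ 2 * E))
    (hCA : ∀ x, θ * τ ≤ x → RX I N s x τ FC FA ≤
      M * (√(x ^ 2 * E * (τ ^ 2 * EA)) + τ ^ 2 * E))
    (hP1 : ∀ x, e₂ ≤ x → x ≤ θ * τ → RX I N s x σ FC FA ≤ P₁ * x ^ 2)
    (hZB : ∀ h, 0 < h → h ≤ e₂ → RX I N s h h FB FC ≤ Z * h ^ 2)
    (hZA : ∀ h, 0 < h → h ≤ e₂ → RX I N s h h FC FA ≤ Z * h ^ 2) :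
    UX I N s τ τ cC FA FB FC 0 0 0 ≤
      6 * M * τ * L₀ * (√((θ * √(E * EA) + E) * (θ * √(E * EV) + E)) / θ) +
      6 * D * τ * (√(P₀ * M * (θ * √(E * EA) + E)) + √(P₀ * M * (θ * √(E * EV) + E))) +
      6 * L₁ * τ * √(P₁ * M * (θ * √(E * EV) + E)) + 54 * (P₀ + Z) * e₂ := by
  have pA : 0 ≤ θ * √(E * EA) + E := by positivity
  have pB : 0 ≤ θ * √(E * EV) + E := by positivity
  have h := stageY (I := I) (N := N) (s := s) (FA := FA) (FB := FB) (FC := FC) hτ hC capA capB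
    capC (P₀ := P₀) (P₁ := P₁) (QA := M * τ ^ 2 * (θ * √(E * EA) + E))
    (QB := M * τ ^ 2 * (θ * √(E * EV) + E)) (Z := Z)
    (κ' := M * τ * (√((θ * √(E * EA) + E) * (θ * √(E * EV) + E)) / θ)) (g := θ * τ) (σ := σ)
    (e₂ := e₂) hP₀ (by positivity) hZ0 (by positivity) (D := D) (L₀ := L₀) (L₁ := L₁) hDσ hσ hL₀
    hL₁ hAB (fun h h0 h1 => hAB h h0 (h1.trans he₂))
    (fun x hx _ => raw_kap hM hE hθ hτ hx RX_nonneg (hBC x hx) (hCA x hx))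
    ((hCA _ le_rfl).trans (le_of_eq (raw_at hθ hτ)))
    ((hBC _ le_rfl).trans (le_of_eq (raw_at hθ hτ))) hP1 hZB hZA
  refine h.trans (le_of_eq ?_)
  have e1 : ∀ P Q : ℝ, √(P * (M * τ ^ 2 * Q)) = τ * √(P * M * Q) := by
    intro P Q
    rw [show P * (M * τ ^ 2 * Q) = τ ^ 2 * (P * M * Q) by ring, Real.sqrt_mul (by positivity),
      Real.sqrt_sq hτ.le]
  rw [e1, e1, e1]
  ring

end

end Vale.Agent.P141.H733
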